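import Mathlib
import Vale.Agent.Lib.P328.RP.UnitRow
import Vale.Agent.Lib.P328.RP.Rows

/-!
P328: a crude gap for three-row tables whose last row has sum one.

For `r 2 = 1` and arbitrary column sums, the variance of a function on `CT 3 n r c` is at most
`4 n + 1` times the sum over the three row pairs `q` of `⟨g, g⟩ - ⟨g, R q g⟩`.

Proof.  Write `g - (mean) = f0 + φ` with `f0 = g - E[g | row 2]` and `φ = E[g | row 2] - mean`,
a centred function of the unit column `J`.  Given row `a ∈ {0, 1}`, `J` is uniform on the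
columns that are not full in row `a`, so `|φ - E[φ | row a]|^2` is at least `1 / (2 n)` times
the sum over the tables `x` and the columns `l` not full in row `a` of `x` of
`(φ x - ψ l)^2`.  Every column with positive column sum is not full in row `0` or in row `1`,
which gives `|φ - E[φ | row 0]|^2 + |φ - E[φ | row 1]|^2 ≥ |φ|^2 / n`.  Finally
`φ - E[φ | row a] = (g - E[g | row a]) - (f0 - E[f0 | row a])`.
-/

namespace Vale.Agent.Lib.P328.RP

open Finset
open Vale.Agent.Lib.P335.Bip

namespace CrudeThree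

/-- the sum of the squared differences over the pairs of a set of at most `n` elements is at
most `2 n` times the sum of the squared deviations from the mean -/
theorem var_le (n : ℕ) (T : Finset (Fin n)) (ψ : Fin n → ℝ) (m : ℝ)
    (hm : (T.card : ℝ) * m = ∑ l ∈ T, ψ l) :
    ∑ j ∈ T, ∑ l ∈ T, (ψ j - ψ l) ^ 2 ≤ 2 * (n : ℝ) * ∑ j ∈ T, (ψ j - m) ^ 2 := by
  have hd : (T.card : ℝ) ≤ n := by
    have h := Finset.card_le_univ T
    rw [Fintype.card_fin] at h
    exact_mod_cast h
  have hS : 0 ≤ ∑ j ∈ T, (ψ j - m) ^ 2 := Finset.sum_nonneg (fun j _ => sq_nonneg _)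
  have h0 : ∑ j ∈ T, (ψ j - m) = 0 := by
    rw [Finset.sum_sub_distrib, Finset.sum_const, nsmul_eq_mul, hm, sub_self]
  have e : ∀ j ∈ T, ∑ l ∈ T, (ψ j - ψ l) ^ 2
      = (T.card : ℝ) * (ψ j - m) ^ 2 + ∑ l ∈ T, (ψ l - m) ^ 2 := by
    intro j _
    have e1 : ∀ l ∈ T, (ψ j - ψ l) ^ 2
        = (ψ j - m) ^ 2 + (ψ l - m) ^ 2 - 2 * (ψ j - m) * (ψ l - m) := by
      intro l _
      ring
    rw [Finset.sum_congr rfl e1, Finset.sum_sub_distrib, Finset.sum_add_distrib,
      Finset.sum_const, nsmul_eq_mul, ← Finset.mul_sum, h0]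
    ring
  have hid : ∑ j ∈ T, ∑ l ∈ T, (ψ j - ψ l) ^ 2
      = 2 * (T.card : ℝ) * ∑ j ∈ T, (ψ j - m) ^ 2 := by
    rw [Finset.sum_congr rfl e, Finset.sum_add_distrib, ← Finset.mul_sum, Finset.sum_const,
      nsmul_eq_mul]
    ring
  rw [hid]
  have h2 : 2 * (T.card : ℝ) ≤ 2 * (n : ℝ) := by linarith
  exact mul_le_mul_of_nonneg_right h2 hS

variable {n : ℕ} {r : Fin 3 → ℕ} {c : Fin n → ℕ}

/-- the fibre of the two rows other than `a` is the class of the tables with the same row
`a` -/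
theorem fibre_erase (a : Fin 3) (x0 : CT 3 n r c) :
    fibre (univ.erase a) x0 = univ.filter (fun x : CT 3 n r c => x.1 a = x0.1 a) := by
  ext y
  rw [mem_fibre, mem_filter]
  constructor
  · intro h
    exact ⟨mem_univ _, h a (Finset.notMem_erase a univ)⟩
  · rintro ⟨-, h⟩ i hi
    have hia : i = a := by
      by_contra hne
      exact hi (Finset.mem_erase.mpr ⟨hne, Finset.mem_univ i⟩)
    rw [hia]
    exact h

open UnitRow

theorem card_class (hr : r 2 = 1) (a : Fin 3) (ha : a ≠ 2) (x0 : CT 3 n r c) :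
    ((univ.filter (fun x : CT 3 n r c => x.1 a = x0.1 a)).card : ℝ)
      = ((univ.filter (fun j : Fin n => x0.1 a j < c j)).card : ℝ) := by
  have h := sum_class hr a ha x0 (fun _ => (1 : ℝ))
  rw [Finset.sum_const, Finset.sum_const, nsmul_eq_mul, nsmul_eq_mul, mul_one, mul_one] at h
  exact h

/-- the conditional expectation given row `a` of a function of the unit column -/
theorem R_unit (hr : r 2 = 1) (a : Fin 3) (ha : a ≠ 2) (ψ : Fin n → ℝ)
    (φ : CT 3 n r c → ℝ) (hφ : ∀ x, φ x = ψ (ucol hr x)) (x0 : CT 3 n r c) :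
    R (univ.erase a) φ x0
      = (∑ j ∈ univ.filter (fun j : Fin n => x0.1 a j < c j), ψ j)
        / ((univ.filter (fun j : Fin n => x0.1 a j < c j)).card : ℝ) := by
  rw [R_apply_fibre, fibre_erase, Finset.sum_congr rfl (fun x _ => hφ x),
    sum_class hr a ha x0 ψ, card_class hr a ha x0]

/-- the fibrewise variance bound -/
theorem fibre_ineq (hr : r 2 = 1) (a : Fin 3) (ha : a ≠ 2) (ψ : Fin n → ℝ)
    (φ : CT 3 n r c → ℝ) (hφ : ∀ x, φ x = ψ (ucol hr x)) :
    ∑ x : CT 3 n r c, ∑ l ∈ univ.filter (fun l : Fin n => x.1 a l < c l), (φ x - ψ l) ^ 2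
      ≤ 2 * (n : ℝ) * ip (φ - R (univ.erase a) φ) (φ - R (univ.erase a) φ) := by
  classical
  have hD : ∑ x : CT 3 n r c, ∑ l ∈ univ.filter (fun l : Fin n => x.1 a l < c l),
        (φ x - ψ l) ^ 2
      = ∑ x : CT 3 n r c, R (univ.erase a) (fun x : CT 3 n r c =>
          ∑ l ∈ univ.filter (fun l : Fin n => x.1 a l < c l), (φ x - ψ l) ^ 2) x :=
    (sum_cexp _ _).symm
  have hF : ip (φ - R (univ.erase a) φ) (φ - R (univ.erase a) φ)
      = ∑ x : CT 3 n r c, R (univ.erase a) (fun x : CT 3 n r c =>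
          (φ x - R (univ.erase a) φ x) ^ 2) x := by
    rw [ip_eq_sum_sq]
    exact (sum_cexp _ _).symm
  rw [hD, hF, Finset.mul_sum]
  refine Finset.sum_le_sum (fun x0 _ => ?_)
  rw [R_apply_fibre, R_apply_fibre, fibre_erase]
  have hTne : ((univ.filter (fun j : Fin n => x0.1 a j < c j)).card : ℝ) ≠ 0 := by
    have hmem : ucol hr x0 ∈ univ.filter (fun j : Fin n => x0.1 a j < c j) :=
      Finset.mem_filter.mpr ⟨Finset.mem_univ _, lt_of_ucol hr a ha x0⟩
    exact_mod_cast (Finset.card_pos.mpr ⟨_, hmem⟩).ne'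
  have hmT : ((univ.filter (fun j : Fin n => x0.1 a j < c j)).card : ℝ)
      * R (univ.erase a) φ x0 = ∑ l ∈ univ.filter (fun j : Fin n => x0.1 a j < c j), ψ l := by
    rw [R_unit hr a ha ψ φ hφ x0]
    field_simp
  have hDs : ∑ x ∈ univ.filter (fun x : CT 3 n r c => x.1 a = x0.1 a),
      (∑ l ∈ univ.filter (fun l : Fin n => x.1 a l < c l), (φ x - ψ l) ^ 2)
      = ∑ j ∈ univ.filter (fun j : Fin n => x0.1 a j < c j),
          ∑ l ∈ univ.filter (fun j : Fin n => x0.1 a j < c j), (ψ j - ψ l) ^ 2 := by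
    rw [← sum_class hr a ha x0 (fun j =>
      ∑ l ∈ univ.filter (fun j : Fin n => x0.1 a j < c j), (ψ j - ψ l) ^ 2)]
    refine Finset.sum_congr rfl (fun x hx => ?_)
    have hxa := (Finset.mem_filter.mp hx).2
    rw [hxa, hφ x]
  have hFs : ∑ x ∈ univ.filter (fun x : CT 3 n r c => x.1 a = x0.1 a),
      (φ x - R (univ.erase a) φ x) ^ 2
      = ∑ j ∈ univ.filter (fun j : Fin n => x0.1 a j < c j),
          (ψ j - R (univ.erase a) φ x0) ^ 2 := by
    rw [← sum_class hr a ha x0 (fun j => (ψ j - R (univ.erase a) φ x0) ^ 2)]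
    refine Finset.sum_congr rfl (fun x hx => ?_)
    have hxa := (Finset.mem_filter.mp hx).2
    have hR : R (univ.erase a) φ x = R (univ.erase a) φ x0 := by
      apply R_congr
      intro i hi
      have hia : i = a := by
        by_contra hne
        exact hi (Finset.mem_erase.mpr ⟨hne, Finset.mem_univ i⟩)
      rw [hia]
      exact hxa
    rw [hR, hφ x]
  rw [hDs, hFs, ← mul_div_assoc]
  exact div_le_div_of_nonneg_right (var_le n _ ψ _ hmT) (Nat.cast_nonneg _)

/-- every column with a positive column sum is not full in row `0` or in row `1` -/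
theorem two_var_le (hr : r 2 = 1) (ψ : Fin n → ℝ) (φ : CT 3 n r c → ℝ)
    (hφ : ∀ x, φ x = ψ (ucol hr x)) (h0 : ∑ x, φ x = 0) :
    2 * ip φ φ ≤ ∑ x : CT 3 n r c,
      (∑ l ∈ univ.filter (fun l : Fin n => x.1 0 l < c l), (φ x - ψ l) ^ 2
        + ∑ l ∈ univ.filter (fun l : Fin n => x.1 1 l < c l), (φ x - ψ l) ^ 2) := by
  classical
  by_cases hne : Nonempty (CT 3 n r c)
  swap
  · have hemp : IsEmpty (CT 3 n r c) := not_nonempty_iff.mp hne
    unfold ip
    rw [Finset.univ_eq_empty, Finset.sum_empty, Finset.sum_empty]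
    norm_num
  have hZ : 0 < (Fintype.card (CT 3 n r c) : ℝ) := by exact_mod_cast Fintype.card_pos
  have hstep : ∀ x : CT 3 n r c, ∑ x' : CT 3 n r c, (φ x - φ x') ^ 2
      ≤ (Fintype.card (CT 3 n r c) : ℝ) *
        (∑ l ∈ univ.filter (fun l : Fin n => x.1 0 l < c l), (φ x - ψ l) ^ 2
          + ∑ l ∈ univ.filter (fun l : Fin n => x.1 1 l < c l), (φ x - ψ l) ^ 2) := by
    intro x
    have e1 : ∑ x' : CT 3 n r c, (φ x - φ x') ^ 2
        = ∑ l : Fin n, ∑ x' : CT 3 n r c,
            (if l = ucol hr x' then (φ x - ψ l) ^ 2 else 0) := by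
      rw [Finset.sum_comm]
      refine Finset.sum_congr rfl (fun x' _ => ?_)
      rw [Finset.sum_ite_eq' univ (ucol hr x') (fun l => (φ x - ψ l) ^ 2),
        if_pos (Finset.mem_univ _), hφ x']
    have e2 : ∀ l : Fin n, ∑ x' : CT 3 n r c,
        (if l = ucol hr x' then (φ x - ψ l) ^ 2 else 0)
        ≤ (Fintype.card (CT 3 n r c) : ℝ) *
          ((if x.1 0 l < c l then (φ x - ψ l) ^ 2 else 0)
            + (if x.1 1 l < c l then (φ x - ψ l) ^ 2 else 0)) := by
      intro l
      have hsq : 0 ≤ (φ x - ψ l) ^ 2 := sq_nonneg _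
      have hb : ∀ x' : CT 3 n r c, (if l = ucol hr x' then (φ x - ψ l) ^ 2 else 0)
          ≤ ((if x.1 0 l < c l then (φ x - ψ l) ^ 2 else 0)
            + (if x.1 1 l < c l then (φ x - ψ l) ^ 2 else 0)) := by
        intro x'
        by_cases hl : l = ucol hr x'
        · rw [if_pos hl]
          have hc1 : 1 ≤ c l := by
            have h1 := col3 x' l
            have h2 := ucol_one hr x'
            rw [← hl] at h2
            omega
          have hcx := col3 x l
          by_cases h0l : x.1 0 l < c l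
          · rw [if_pos h0l]
            split_ifs <;> linarith
          · have h1l : x.1 1 l < c l := by omega
            rw [if_neg h0l, if_pos h1l]
            linarith
        · rw [if_neg hl]
          split_ifs <;> linarith
      calc ∑ x' : CT 3 n r c, (if l = ucol hr x' then (φ x - ψ l) ^ 2 else 0)
          ≤ ∑ _x' : CT 3 n r c, ((if x.1 0 l < c l then (φ x - ψ l) ^ 2 else 0)
            + (if x.1 1 l < c l then (φ x - ψ l) ^ 2 else 0)) :=
            Finset.sum_le_sum (fun x' _ => hb x')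
        _ = (Fintype.card (CT 3 n r c) : ℝ) *
          ((if x.1 0 l < c l then (φ x - ψ l) ^ 2 else 0)
            + (if x.1 1 l < c l then (φ x - ψ l) ^ 2 else 0)) := by
            rw [Finset.sum_const, Finset.card_univ, nsmul_eq_mul]
    rw [e1]
    calc ∑ l : Fin n, ∑ x' : CT 3 n r c, (if l = ucol hr x' then (φ x - ψ l) ^ 2 else 0)
        ≤ ∑ l : Fin n, (Fintype.card (CT 3 n r c) : ℝ) *
          ((if x.1 0 l < c l then (φ x - ψ l) ^ 2 else 0)
            + (if x.1 1 l < c l then (φ x - ψ l) ^ 2 else 0)) :=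
          Finset.sum_le_sum (fun l _ => e2 l)
      _ = (Fintype.card (CT 3 n r c) : ℝ) *
        (∑ l ∈ univ.filter (fun l : Fin n => x.1 0 l < c l), (φ x - ψ l) ^ 2
          + ∑ l ∈ univ.filter (fun l : Fin n => x.1 1 l < c l), (φ x - ψ l) ^ 2) := by
          rw [← Finset.mul_sum, Finset.sum_add_distrib, Finset.sum_filter, Finset.sum_filter]
  have hpair : ∑ x : CT 3 n r c, ∑ x' : CT 3 n r c, (φ x - φ x') ^ 2
      = 2 * (Fintype.card (CT 3 n r c) : ℝ) * ip φ φ := by
    have e : ∀ x : CT 3 n r c, ∑ x' : CT 3 n r c, (φ x - φ x') ^ 2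
        = (Fintype.card (CT 3 n r c) : ℝ) * φ x ^ 2 + ip φ φ := by
      intro x
      have e1 : ∀ x' ∈ (univ : Finset (CT 3 n r c)), (φ x - φ x') ^ 2
          = φ x ^ 2 + φ x' ^ 2 - 2 * φ x * φ x' := by
        intro x' _
        ring
      rw [Finset.sum_congr rfl e1, Finset.sum_sub_distrib, Finset.sum_add_distrib,
        Finset.sum_const, Finset.card_univ, nsmul_eq_mul, ← Finset.mul_sum, h0, ip_eq_sum_sq]
      ring
    rw [Finset.sum_congr rfl (fun x _ => e x), Finset.sum_add_distrib, ← Finset.mul_sum,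
      Finset.sum_const, Finset.card_univ, nsmul_eq_mul, ← ip_eq_sum_sq]
    ring
  have hsum : 2 * (Fintype.card (CT 3 n r c) : ℝ) * ip φ φ
      ≤ (Fintype.card (CT 3 n r c) : ℝ) * ∑ x : CT 3 n r c,
        (∑ l ∈ univ.filter (fun l : Fin n => x.1 0 l < c l), (φ x - ψ l) ^ 2
          + ∑ l ∈ univ.filter (fun l : Fin n => x.1 1 l < c l), (φ x - ψ l) ^ 2) := by
    rw [← hpair, Finset.mul_sum]
    exact Finset.sum_le_sum (fun x _ => hstep x)
  have hfin : (Fintype.card (CT 3 n r c) : ℝ) * (2 * ip φ φ)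
      ≤ (Fintype.card (CT 3 n r c) : ℝ) * ∑ x : CT 3 n r c,
        (∑ l ∈ univ.filter (fun l : Fin n => x.1 0 l < c l), (φ x - ψ l) ^ 2
          + ∑ l ∈ univ.filter (fun l : Fin n => x.1 1 l < c l), (φ x - ψ l) ^ 2) := by
    linarith
  exact le_of_mul_le_mul_left hfin hZ

/-- the part of `φ = E[g | row 2] - mean` that is not a function of row `a` is controlled by
the parts of `g` that are not functions of row `a` and of row `2` -/
theorem key_bound (a : Fin 3) (g : CT 3 n r c → ℝ) :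
    ip (Rows.Fk g 2 - R (univ.erase a) (Rows.Fk g 2))
        (Rows.Fk g 2 - R (univ.erase a) (Rows.Fk g 2))
      ≤ 2 * (ip g g - ip g (R (univ.erase a) g))
        + 2 * (ip g g - ip g (R (univ.erase 2) g)) := by
  have hU : R (univ.erase a) (R univ g) = R univ g := R_R_of_subset (Finset.subset_univ _) g
  have hXY : Rows.Fk g 2 - R (univ.erase a) (Rows.Fk g 2)
      = (g - R (univ.erase a) g)
        - ((g - R (univ.erase 2) g) - R (univ.erase a) (g - R (univ.erase 2) g)) := by
    unfold Rows.Fk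
    rw [map_sub, map_sub, hU]
    abel
  have hX : ip (g - R (univ.erase a) g) (g - R (univ.erase a) g)
      = ip g g - ip g (R (univ.erase a) g) := ip_sub_cexp _ g
  have hf0 : ip (g - R (univ.erase 2) g) (g - R (univ.erase 2) g)
      = ip g g - ip g (R (univ.erase 2) g) := ip_sub_cexp _ g
  have hY : ip ((g - R (univ.erase 2) g) - R (univ.erase a) (g - R (univ.erase 2) g))
      ((g - R (univ.erase 2) g) - R (univ.erase a) (g - R (univ.erase 2) g))
      = ip (g - R (univ.erase 2) g) (g - R (univ.erase 2) g)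
        - ip (g - R (univ.erase 2) g) (R (univ.erase a) (g - R (univ.erase 2) g)) :=
    ip_sub_cexp _ _
  have hYn : 0 ≤ ip (g - R (univ.erase 2) g) (R (univ.erase a) (g - R (univ.erase 2) g)) :=
    ip_cexp_self_nonneg _ _
  rw [hXY, ← hX, ← hf0]
  generalize (g - R (univ.erase 2) g) - R (univ.erase a) (g - R (univ.erase 2) g) = Y at hY ⊢
  generalize g - R (univ.erase a) g = X
  have h1 : 0 ≤ ip (X + Y) (X + Y) := ip_self_nonneg _
  rw [ip_add_left, ip_add_right, ip_add_right] at h1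
  rw [ip_sub_left, ip_sub_right, ip_sub_right]
  have hc := ip_comm Y X
  linarith

end CrudeThree

open CrudeThree UnitRow in
/-- **Crude gap, last row of sum one, arbitrary column sums.**  The variance is at most
`4 n + 1` times the sum over the three row pairs of the Dirichlet forms of the pair
resamplings. -/
theorem crude_three_unit {n : ℕ} (r : Fin 3 → ℕ) (c : Fin n → ℕ) (h2 : r 2 = 1)
    (g : CT 3 n r c → ℝ) :
    ip g g - ip g (R univ g) ≤ (4 * (n : ℝ) + 1) *
      ∑ q ∈ (univ : Finset (Fin 3)).powersetCard 2, (ip g g - ip g (R q g)) := by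
  classical
  have hpairs : ∑ q ∈ (univ : Finset (Fin 3)).powersetCard 2, (ip g g - ip g (R q g))
      = (ip g g - ip g (R (univ.erase 0) g)) + (ip g g - ip g (R (univ.erase 1) g))
        + (ip g g - ip g (R (univ.erase 2) g)) := by
    rw [Rows.pairs_eq, Finset.sum_image (fun a _ b _ h => Rows.erase_inj h),
      Fin.sum_univ_three]
  rw [hpairs]
  -- the function of the unit column behind `Fk g 2`
  have hrep : ∀ x : CT 3 n r c,
      (fun j : Fin n => if h : ∃ y : CT 3 n r c, ucol h2 y = j then Rows.Fk g 2 h.choose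
        else 0) (ucol h2 x) = Rows.Fk g 2 x := by
    intro x
    have hex : ∃ y : CT 3 n r c, ucol h2 y = ucol h2 x := ⟨x, rfl⟩
    simp only
    rw [dif_pos hex]
    apply Rows.Fk_congr g 2
    funext l
    rw [row2_apply h2 hex.choose l, row2_apply h2 x l, hex.choose_spec]
  generalize (fun j : Fin n => if h : ∃ y : CT 3 n r c, ucol h2 y = j then
    Rows.Fk g 2 h.choose else 0) = ψ at hrep
  have hφψ : ∀ x, Rows.Fk g 2 x = ψ (ucol h2 x) := fun x => (hrep x).symm
  have hsum0 : ∑ x, Rows.Fk g 2 x = 0 := Rows.sum_Fk g 2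
  have hφφ : ip (Rows.Fk g 2) (Rows.Fk g 2)
      = ip g (R (univ.erase 2) g) - ip g (R univ g) := Rows.ip_Fk_self g 2
  have hA : ip (g - R (univ.erase 0) g) (g - R (univ.erase 0) g)
      = ip g g - ip g (R (univ.erase 0) g) := ip_sub_cexp _ g
  have hB : ip (g - R (univ.erase 1) g) (g - R (univ.erase 1) g)
      = ip g g - ip g (R (univ.erase 1) g) := ip_sub_cexp _ g
  have hC : ip (g - R (univ.erase 2) g) (g - R (univ.erase 2) g)
      = ip g g - ip g (R (univ.erase 2) g) := ip_sub_cexp _ g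
  have hA0 : 0 ≤ ip g g - ip g (R (univ.erase 0) g) := by
    rw [← hA]
    exact ip_self_nonneg _
  have hB0 : 0 ≤ ip g g - ip g (R (univ.erase 1) g) := by
    rw [← hB]
    exact ip_self_nonneg _
  have hC0 : 0 ≤ ip g g - ip g (R (univ.erase 2) g) := by
    rw [← hC]
    exact ip_self_nonneg _
  have hk0 := key_bound 0 g
  have hk1 := key_bound 1 g
  have hf0 := fibre_ineq h2 0 (by decide) ψ (Rows.Fk g 2) hφψ
  have hf1 := fibre_ineq h2 1 (by decide) ψ (Rows.Fk g 2) hφψ
  have htv := two_var_le h2 ψ (Rows.Fk g 2) hφψ hsum0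
  rw [Finset.sum_add_distrib] at htv
  have hn : (0 : ℝ) ≤ (n : ℝ) := Nat.cast_nonneg n
  have hm0 := mul_le_mul_of_nonneg_left hk0 (by linarith : (0 : ℝ) ≤ 2 * (n : ℝ))
  have hm1 := mul_le_mul_of_nonneg_left hk1 (by linarith : (0 : ℝ) ≤ 2 * (n : ℝ))
  nlinarith [mul_nonneg hn hA0, mul_nonneg hn hB0, mul_nonneg hn hC0]

end Vale.Agent.Lib.P328.RP
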